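import Crest.Agent.N250.T.All
import Crest.Agent.N250.FV.Closed
import Crest.Agent.N250.A.Main
import Crest.Agent.N250.A.A1
import Crest.Agent.N250.A.AltII
import Crest.Agent.N250.A.Bar
import Crest.Agent.N250.A.CR
import Crest.Agent.N250.A.CS
import Crest.Agent.N250.A.Cfg
import Crest.Agent.N250.A.CostF
import Crest.Agent.N250.A.Fin
import Crest.Agent.N250.A.KAt
import Crest.Agent.N250.A.KSph
import Crest.Agent.N250.A.PsiC
import Crest.Agent.N250.A.PsiSub
import Crest.Agent.N250.A.StmH
import Crest.Agent.N250.A.W1
import Crest.Agent.N250.K.KI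
import Crest.Agent.N250.MP.Two
import Crest.Agent.N250.Min.An
import Crest.Agent.N250.Min.At
import Crest.Agent.N250.Min.Bl
import Crest.Agent.N250.Min.End
import Crest.Agent.N250.Min.Fl
import Crest.Agent.N250.Min.Sph
import Crest.Agent.N250.SL.Main
import Crest.Agent.N250.SL.Flat

/-!
# Row 250: block A assembled (helper20)
-/

set_option autoImplicit false

namespace Crest.Agent.N250.Top

theorem w1 : A.W1S := A.w1S_of TA.white huiskenS_holds

theorem dec : Min.DecS := Min.decS_of (CS.csS_of wMonoS_holds bernS_holds)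

theorem endM : Min.EndS :=
  Min.endS_of (Min.blS_of TA.cpt Cv.convJetS_holds convMuS_holds convReachS_holds Min.flS_holds)

theorem atom : Min.AtomS := Min.atomS_of Min.anS_holds dec endM reachPosS_holds

theorem inf : Min.InfS := Min.infS_of Min.anS_holds dec endM

theorem altI : A.AltIS := A.altIS_of K.kIS_holds A.a1S_holds w1 reachAS_holds

theorem altII : A.AltIIS :=
  A.altIIS_of A.kMassS_holds A.kAtS_holds A.kSphS_holds A.a1S_holds
    (slimS_of TA.cpt convMuS_holds w1 atom) (SL.flatS_of w1 reachAS_holds) inf Min.sphS_holds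
    Cv.convJetS_holds convMuS_holds convReachS_holds

theorem bar : A.BarS :=
  A.barS_of (A.keyS_of altI altII) (A.cfgS_of A.costS_holds) A.crS_holds MP.twoS_holds
    A.psiCS_holds A.psiSubS_holds reachPosS_holds

/-- **block A** -/
theorem aStmt : AStmt :=
  A.aStmt_of (A.stmS_of muContS_holds) bar (A.finS_of A.a2S_holds huiskenS_holds) w1 huiskenS_holds

end Crest.Agent.N250.Top
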