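import Crest.Agent.N250.Top.A
import Crest.Agent.N250.Bt.Main
import Crest.Agent.N250.R.Ls
import Crest.Agent.N250.R.Static
import Crest.Agent.N250.R.Imp
import Crest.Agent.N250.R.Start
import Crest.Agent.N250.Sg.EnS
import Crest.Agent.N250.R0.Chain
import Crest.Agent.N250.Gi.Glx
import Crest.Agent.N250.B2.Nc2
import Crest.Agent.N250.Xi.Asm
import Crest.Agent.N250.Xi.Est
import Crest.Agent.N250.Xi.Der
import Crest.Agent.N250.Xi.Soft

/-!
# Row 250: the statement from the last open leaves (helper20)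
-/

set_option autoImplicit false
open Crest.GeometryTopology.MCF

namespace Crest.Agent.N250.Top

theorem static_of (h : R.StatS) : StaticS :=
  R.staticS_of h R.impS_holds Sg.enS_holds R.startS_holds

theorem xi_of (h : Xi.AlS) : R0.XiS := Xi.xiS_of Xi.estS_holds h Xi.derS_holds Xi.softS_holds

theorem fam_of (hG : R0.GluedS) (hX : R0.XiS) : FamS :=
  R0.famS_of hG hX (Gi.T.glx_of B2.gl2Stmt) R0.chainS_holds

theorem ls_of (hS : R.StatS) (hF : FamS) : LSStmt :=
  lsStmt_of (bootS_of TA.white) (static_of hS) lsOfS_holds hF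

theorem fin_of (hS : R.StatS) (hG : R0.GluedS) (hA : Xi.AlS) (M : ℝ → Set E)
    (T : ℝ) (hT : 0 < T) (hM : IsSmoothMCF M T) (hc : IsCompact (M 0)) (hconn : IsConnected (M 0))
    (x₀ : E) (hx : IsSingularPoint M T x₀) :
    ∃ S : Set E, IsSelfShrinker S ∧ RescalingsConvergeTo M T x₀ S :=
  TA.s0387_of_AL aStmt (ls_of hS (fam_of hG (xi_of hA))) M T hT hM hc hconn x₀ hx

end Crest.Agent.N250.Top
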