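import Crest.Agent.N250.Top.Fin
import Crest.Agent.N250.Sg.Stat
import Crest.Agent.N250.Xi.Main

/-!
# Row 250: the statement from the gluing (helper20)
-/

set_option autoImplicit false
open Crest.GeometryTopology.MCF

namespace Crest.Agent.N250.Top

theorem fin_G (hG : R0.GluedS) (M : ℝ → Set E)
    (T : ℝ) (hT : 0 < T) (hM : IsSmoothMCF M T) (hc : IsCompact (M 0)) (hconn : IsConnected (M 0))
    (x₀ : E) (hx : IsSingularPoint M T x₀) :
    ∃ S : Set E, IsSelfShrinker S ∧ RescalingsConvergeTo M T x₀ S :=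
  TA.s0387_of_AL aStmt (ls_of Sg.statS_holds (fam_of hG Xi.xiS_holds)) M T hT hM hc hconn x₀ hx

end Crest.Agent.N250.Top
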